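import Vale.Agent.Results.P034.Talagrand

/-!
# P034: the ratio of the fractional and the integral expectation threshold is bounded

Encoding: the ground set is a finite subset `X : Finset α` of an arbitrary type `α`, and a family
of subsets of `X` is a `F : Finset (Finset α)` with `F ⊆ X.powerset`.
-/

namespace Vale.Agent.Results.P034.BoundedRatio

universe u

/-- `F` is a nonempty proper increasing family of subsets of the finite nonempty set `X`: closed
under supersets inside `X`, and the empty set is not a member. -/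
def IsIncreasingFamily {α : Type u} (X : Finset α) (F : Finset (Finset α)) : Prop :=
  X.Nonempty ∧ F ⊆ X.powerset ∧ F.Nonempty ∧ ∅ ∉ F ∧
    ∀ A ∈ F, ∀ B ∈ X.powerset, A ⊆ B → B ∈ F

/-- `F` is `p`-small: some family `G` of subsets of `X` covers `F` (every `H ∈ F` contains some
`S ∈ G`) and has cost `∑ S ∈ G, p ^ |S|` at most `1 / 2`. -/
def Small {α : Type u} (X : Finset α) (F : Finset (Finset α)) (p : ℝ) : Prop :=
  ∃ G : Finset (Finset α), G ⊆ X.powerset ∧ (∀ H ∈ F, ∃ S ∈ G, S ⊆ H) ∧
    ∑ S ∈ G, p ^ S.card ≤ 1 / 2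

/-- Some fractional cover `g : 2 ^ X → [0, 1]` of `F` (the sum of `g S` over `S ⊆ H` is at least
`1` for every `H ∈ F`) has cost `∑ S ⊆ X, g S * p ^ |S|` at most `1 / 2`. -/
def FracSmall {α : Type u} (X : Finset α) (F : Finset (Finset α)) (p : ℝ) : Prop :=
  ∃ g : Finset α → ℝ, (∀ S ∈ X.powerset, 0 ≤ g S ∧ g S ≤ 1) ∧
    (∀ H ∈ F, 1 ≤ ∑ S ∈ H.powerset, g S) ∧ ∑ S ∈ X.powerset, g S * p ^ S.card ≤ 1 / 2

/-- The integral expectation threshold `q(F)`: the largest `p ∈ [0, 1]` such that `F` is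
`p`-small. (`result` shows that the maximum exists.) -/
noncomputable def q {α : Type u} (X : Finset α) (F : Finset (Finset α)) : ℝ :=
  sSup {p : ℝ | p ∈ Set.Icc 0 1 ∧ Small X F p}

/-- The fractional expectation threshold `q_f(F)`: the largest `p ∈ [0, 1]` such that some
fractional cover has cost at most `1 / 2` at `p`. (`result` shows that the maximum exists.) -/
noncomputable def qf {α : Type u} (X : Finset α) (F : Finset (Finset α)) : ℝ :=
  sSup {p : ℝ | p ∈ Set.Icc 0 1 ∧ FracSmall X F p}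

/-- the members of `F` as subsets of the type attached to `X` -/
def lift {α : Type u} (X : Finset α) (F : Finset (Finset α)) : Set (Finset {x // x ∈ X}) :=
  {A | A.map (Function.Embedding.subtype _) ∈ F}

theorem map_mem {α : Type u} (X : Finset α) (A : Finset {x // x ∈ X}) :
    A.map (Function.Embedding.subtype _) ∈ X.powerset := by
  rw [Finset.mem_powerset]
  intro x hx
  rw [Finset.mem_map] at hx
  obtain ⟨y, -, rfl⟩ := hx
  exact y.2

theorem exists_map {α : Type u} {X S : Finset α} (hS : S ∈ X.powerset) :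
    ∃ A : Finset {x // x ∈ X}, A.map (Function.Embedding.subtype _) = S := by
  classical
  refine ⟨S.subtype (fun x => x ∈ X), ?_⟩
  rw [Finset.subtype_map, Finset.filter_true_of_mem]
  intro x hx
  exact Finset.mem_powerset.1 hS hx

theorem sum_powerset {α : Type u} {X : Finset α} (H : Finset {x // x ∈ X}) (f : Finset α → ℝ) :
    ∑ S ∈ (H.map (Function.Embedding.subtype _)).powerset, f S =
      ∑ A ∈ H.powerset, f (A.map (Function.Embedding.subtype _)) := by
  classical
  symm
  refine Finset.sum_bij (fun A _ => A.map (Function.Embedding.subtype _)) ?_ ?_ ?_ ?_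
  · intro A hA
    rw [Finset.mem_powerset] at hA ⊢
    exact Finset.map_subset_map.2 hA
  · intro A _ B _ h
    exact Finset.map_injective _ h
  · intro S hS
    have hSX : S ∈ X.powerset := by
      rw [Finset.mem_powerset] at hS ⊢
      exact hS.trans (Finset.mem_powerset.1 (map_mem X H))
    obtain ⟨A, rfl⟩ := exists_map hSX
    refine ⟨A, ?_, rfl⟩
    rw [Finset.mem_powerset] at hS ⊢
    exact Finset.map_subset_map.1 hS
  · intro A _
    rfl

theorem map_univ {α : Type u} (X : Finset α) :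
    (Finset.univ : Finset {x // x ∈ X}).map (Function.Embedding.subtype _) = X := by
  ext x
  simp

theorem small_iff {α : Type u} {X : Finset α} {F : Finset (Finset α)} (hF : F ⊆ X.powerset)
    (p : ℝ) : Small X F p ↔ Talagrand.IsSmall (lift X F) p := by
  classical
  constructor
  · rintro ⟨G, h1, h2, h3⟩
    refine ⟨Finset.univ.filter (fun A : Finset {x // x ∈ X} =>
      A.map (Function.Embedding.subtype _) ∈ G), ?_, ?_⟩
    · intro H hH
      obtain ⟨S, hS, hSH⟩ := h2 _ hH
      obtain ⟨A, rfl⟩ := exists_map (h1 hS)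
      exact ⟨A, Finset.mem_filter.2 ⟨Finset.mem_univ _, hS⟩, Finset.map_subset_map.1 hSH⟩
    · refine le_trans (le_of_eq ?_) h3
      refine Finset.sum_bij (fun A _ => A.map (Function.Embedding.subtype _)) ?_ ?_ ?_ ?_
      · intro A hA
        exact (Finset.mem_filter.1 hA).2
      · intro A _ B _ h
        exact Finset.map_injective _ h
      · intro S hS
        obtain ⟨A, rfl⟩ := exists_map (h1 hS)
        exact ⟨A, Finset.mem_filter.2 ⟨Finset.mem_univ _, hS⟩, rfl⟩
      · intro A _
        rw [Finset.card_map]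
  · rintro ⟨G, h1, h2⟩
    refine ⟨G.map ⟨_, Finset.map_injective (Function.Embedding.subtype _)⟩, ?_, ?_, ?_⟩
    · intro S hS
      rw [Finset.mem_map] at hS
      obtain ⟨A, -, rfl⟩ := hS
      exact map_mem X A
    · intro H hH
      obtain ⟨B, rfl⟩ := exists_map (hF hH)
      obtain ⟨S, hS, hSB⟩ := h1 B hH
      refine ⟨S.map (Function.Embedding.subtype _), ?_, Finset.map_subset_map.2 hSB⟩
      rw [Finset.mem_map]
      exact ⟨S, hS, rfl⟩
    · rw [Finset.sum_map]
      refine le_trans (le_of_eq (Finset.sum_congr rfl fun A _ => ?_)) h2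
      change p ^ (A.map (Function.Embedding.subtype _)).card = p ^ A.card
      rw [Finset.card_map]

theorem fracSmall_iff {α : Type u} {X : Finset α} {F : Finset (Finset α)} (hF : F ⊆ X.powerset)
    (p : ℝ) : FracSmall X F p ↔ Talagrand.IsFracSmall (lift X F) p := by
  classical
  have hX := sum_powerset (X := X) Finset.univ
  rw [map_univ] at hX
  constructor
  · rintro ⟨g, h1, h2, h3⟩
    refine ⟨fun A => g (A.map (Function.Embedding.subtype _)), ⟨fun A => h1 _ (map_mem X A),
      fun H hH => ?_⟩, ?_⟩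
    · have := h2 _ hH
      rwa [sum_powerset] at this
    · rw [hX, Finset.powerset_univ] at h3
      refine le_trans (le_of_eq (Finset.sum_congr rfl fun A _ => ?_)) h3
      rw [Finset.card_map]
  · rintro ⟨g, ⟨h1, h2⟩, h3⟩
    have hkey : ∀ A : Finset {x // x ∈ X},
        g ((A.map (Function.Embedding.subtype _)).subtype (fun x => x ∈ X)) = g A := by
      intro A
      congr 1
      ext x
      simp
    refine ⟨fun S => g (S.subtype (fun x => x ∈ X)), fun S _ => h1 _, fun H hH => ?_, ?_⟩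
    · obtain ⟨B, rfl⟩ := exists_map (hF hH)
      rw [sum_powerset]
      refine le_trans (h2 B hH) (le_of_eq (Finset.sum_congr rfl fun A _ => (hkey A).symm))
    · rw [hX, Finset.powerset_univ]
      refine le_trans (le_of_eq (Finset.sum_congr rfl fun A _ => ?_)) h3
      beta_reduce
      rw [hkey, Finset.card_map]

theorem small_pos {α : Type u} {X : Finset α} {F : Finset (Finset α)}
    (hF : IsIncreasingFamily X F) : Small X F ((1 / 2) * (1 / 2 ^ X.card)) := by
  obtain ⟨-, h1, -, h3, -⟩ := hF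
  refine ⟨F, h1, fun H hH => ⟨H, hH, Finset.Subset.refl _⟩, ?_⟩
  have hp0 : (0 : ℝ) < 1 / 2 ^ X.card := by positivity
  have hp1 : (1 / 2 : ℝ) * (1 / 2 ^ X.card) ≤ 1 := by
    have : (1 : ℝ) / 2 ^ X.card ≤ 1 := by
      rw [div_le_one (by positivity)]
      exact one_le_pow₀ (by norm_num)
    linarith
  have h4 : ∀ S ∈ F, ((1 / 2 : ℝ) * (1 / 2 ^ X.card)) ^ S.card ≤ (1 / 2) * (1 / 2 ^ X.card) := by
    intro S hS
    have hc : 1 ≤ S.card := by
      rw [Nat.one_le_iff_ne_zero, Ne, Finset.card_eq_zero]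
      rintro rfl
      exact h3 hS
    exact pow_le_of_le_one (by positivity) hp1 (by omega)
  calc ∑ S ∈ F, ((1 / 2 : ℝ) * (1 / 2 ^ X.card)) ^ S.card
      ≤ ∑ S ∈ F, (1 / 2 : ℝ) * (1 / 2 ^ X.card) := Finset.sum_le_sum h4
    _ = F.card * ((1 / 2 : ℝ) * (1 / 2 ^ X.card)) := by rw [Finset.sum_const, nsmul_eq_mul]
    _ ≤ 2 ^ X.card * ((1 / 2 : ℝ) * (1 / 2 ^ X.card)) := by
        refine mul_le_mul_of_nonneg_right ?_ (by positivity)
        have := Finset.card_le_card h1
        rw [Finset.card_powerset] at this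
        exact_mod_cast this
    _ = 1 / 2 := by
        have : (2 : ℝ) ^ X.card ≠ 0 := by positivity
        field_simp

theorem core : ∃ K : ℝ, ∀ (α : Type u) (X : Finset α) (F : Finset (Finset α)),
    IsIncreasingFamily X F →
      IsGreatest {p : ℝ | p ∈ Set.Icc 0 1 ∧ Small X F p} (q X F) ∧
      IsGreatest {p : ℝ | p ∈ Set.Icc 0 1 ∧ FracSmall X F p} (qf X F) ∧
      0 < q X F ∧ qf X F ≤ K * q X F := by
  obtain ⟨K, hK0, hK⟩ := Talagrand.result.{u}
  refine ⟨K, fun α X F hF => ?_⟩
  have hF' := hF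
  obtain ⟨h1, h2, h3, h4, h5⟩ := hF
  have : Nonempty {x // x ∈ X} := ⟨⟨h1.choose, h1.choose_spec⟩⟩
  have hup : IsUpperSet (lift X F) := by
    intro A B hAB hA
    exact h5 _ hA _ (map_mem X B) (Finset.map_subset_map.2 hAB)
  have hne : (lift X F).Nonempty := by
    obtain ⟨S, hS⟩ := h3
    obtain ⟨A, rfl⟩ := exists_map (h2 hS)
    exact ⟨A, hS⟩
  have hem : ∅ ∉ lift X F := by
    intro h
    apply h4
    simpa [lift] using h
  obtain ⟨k1, k2, k3⟩ := hK {x // x ∈ X} (lift X F) hup hne hem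
  have e1 : {p : ℝ | p ∈ Set.Icc 0 1 ∧ Small X F p} = Talagrand.smallSet (lift X F) := by
    ext p
    constructor
    · rintro ⟨⟨a, b⟩, c⟩
      exact ⟨a, b, (small_iff h2 p).1 c⟩
    · rintro ⟨a, b, c⟩
      exact ⟨⟨a, b⟩, (small_iff h2 p).2 c⟩
  have e2 : {p : ℝ | p ∈ Set.Icc 0 1 ∧ FracSmall X F p} =
      Talagrand.fracSmallSet (lift X F) := by
    ext p
    constructor
    · rintro ⟨⟨a, b⟩, c⟩
      exact ⟨a, b, (fracSmall_iff h2 p).1 c⟩
    · rintro ⟨a, b, c⟩
      exact ⟨⟨a, b⟩, (fracSmall_iff h2 p).2 c⟩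
  have e3 : q X F = Talagrand.qInt (lift X F) := by
    rw [q, e1, Talagrand.qInt]
  have e4 : qf X F = Talagrand.qFrac (lift X F) := by
    rw [qf, e2, Talagrand.qFrac]
  rw [e1, e2, e3, e4]
  refine ⟨k1, k2, ?_, k3⟩
  rw [← e1, ← e3] at k1
  have hp : ((1 / 2 : ℝ) * (1 / 2 ^ X.card)) ∈ {p : ℝ | p ∈ Set.Icc 0 1 ∧ Small X F p} := by
    refine ⟨⟨by positivity, ?_⟩, small_pos hF'⟩
    have : (1 : ℝ) / 2 ^ X.card ≤ 1 := by
      rw [div_le_one (by positivity)]
      exact one_le_pow₀ (by norm_num)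
    linarith
  have := k1.2 hp
  rw [← e3]
  exact lt_of_lt_of_le (by positivity) this

/-- **Talagrand's conjecture.** For nonempty proper increasing families `F` of subsets of a finite
nonempty set `X`:
(1) both maxima `q(F)`, `q_f(F)` exist, and `q(F) > 0`;
(2) there is a universal constant `K` with `q_f(F) ≤ K q(F)` for all such `X` and `F`;
(3) equivalently, there is no sequence of such families along which `q_f / q` is unbounded. -/
theorem result :
    (∀ (α : Type u) (X : Finset α) (F : Finset (Finset α)), IsIncreasingFamily X F →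
      IsGreatest {p : ℝ | p ∈ Set.Icc 0 1 ∧ Small X F p} (q X F) ∧
      IsGreatest {p : ℝ | p ∈ Set.Icc 0 1 ∧ FracSmall X F p} (qf X F) ∧ 0 < q X F) ∧
    (∃ K : ℝ, ∀ (α : Type u) (X : Finset α) (F : Finset (Finset α)), IsIncreasingFamily X F →
      qf X F ≤ K * q X F) ∧
    ¬ ∃ (α : ℕ → Type u) (X : ∀ n, Finset (α n)) (F : ∀ n, Finset (Finset (α n))),
      (∀ n, IsIncreasingFamily (X n) (F n)) ∧ ∀ C : ℝ, ∃ n, C < qf (X n) (F n) / q (X n) (F n) := by
  obtain ⟨K, hK⟩ := core.{u}
  refine ⟨fun α X F hF => ?_, ⟨K, fun α X F hF => (hK α X F hF).2.2.2⟩, ?_⟩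
  · obtain ⟨a, b, c, -⟩ := hK α X F hF
    exact ⟨a, b, c⟩
  · rintro ⟨α, X, F, hF, hC⟩
    obtain ⟨n, hn⟩ := hC K
    obtain ⟨-, -, c, d⟩ := hK (α n) (X n) (F n) (hF n)
    rw [lt_div_iff₀ c] at hn
    linarith

end Vale.Agent.Results.P034.BoundedRatio
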