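import Vale.Agent.Results.P034.Talagrand

/-!
# P034: the fractional expectation threshold is at most `10 ^ 1000` times the integral one

The statement is written out with plain quantifiers over the subsets of a finite type `X`
(`Set X`, cardinality `Set.ncard`, sums `finsum` over the finite type `Set X`); it uses no
definition besides those of Mathlib.
-/

namespace Vale.Agent.Results.P034.ExplicitConstant

open Finset

universe u

open Classical in
/-- the finite set attached to a set -/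
noncomputable def fin {X : Type u} [Fintype X] (S : Set X) : Finset X := univ.filter fun x => x ∈ S

theorem mem_fin {X : Type u} [Fintype X] {S : Set X} {x : X} : x ∈ fin S ↔ x ∈ S := by
  simp [fin]

theorem coe_fin {X : Type u} [Fintype X] (S : Set X) : ((fin S : Finset X) : Set X) = S := by
  ext x
  rw [mem_coe, mem_fin]

theorem fin_coe {X : Type u} [Fintype X] (S : Finset X) : fin (S : Set X) = S := by
  ext x
  rw [mem_fin, mem_coe]

open Classical in
theorem sum_conv {X : Type u} [Fintype X] (f : Set X → ℝ) (G : Set (Set X)) :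
    (∑ᶠ S ∈ G, f S) =
      ∑ S ∈ (univ : Finset (Finset X)).filter (fun S : Finset X => (S : Set X) ∈ G),
        f (S : Set X) := by
  rw [finsum_mem_def, finsum_eq_sum_of_fintype, sum_filter,
    ← Fintype.sum_equiv (Fintype.finsetEquivSet (α := X))
      (fun S : Finset X => if (S : Set X) ∈ G then f (S : Set X) else 0) _ ?_]
  intro S
  rw [Set.indicator_apply]
  rfl

theorem sum_conv_all {X : Type u} [Fintype X] (f : Set X → ℝ) :
    (∑ᶠ S : Set X, f S) = ∑ S : Finset X, f (S : Set X) := by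
  classical
  rw [finsum_eq_sum_of_fintype,
    ← Fintype.sum_equiv (Fintype.finsetEquivSet (α := X)) (fun S : Finset X => f (S : Set X)) _ ?_]
  intro S
  rfl

theorem bigK_le : Vale.Agent.P034.bigK ≤ 10 ^ 1000 := by
  unfold Vale.Agent.P034.bigK Vale.Agent.P034.kap
  have h1 : (8 / 3 : ℝ) ^ 250 ≤ 10 ^ 107 := by norm_num
  have h2 : (8 / 3 : ℝ) ^ 2000 ≤ 10 ^ 856 := by
    have e : (2000 : ℕ) = 250 * 8 := by norm_num
    calc (8 / 3 : ℝ) ^ 2000 = ((8 / 3 : ℝ) ^ 250) ^ 8 := by rw [e, pow_mul]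
      _ ≤ (10 ^ 107) ^ 8 := pow_le_pow_left₀ (by positivity) h1 8
      _ = 10 ^ 856 := by rw [← pow_mul]
  have h3 : (10 : ℝ) ^ 1000 = 10 ^ 144 * 10 ^ 856 := by rw [← pow_add]
  have h4 : (16 * (5 * 1024) : ℝ) ≤ 10 ^ 144 := by norm_num
  calc 16 * (5 * (1024 * (8 / 3 : ℝ) ^ 2000)) = (16 * (5 * 1024)) * (8 / 3 : ℝ) ^ 2000 := by ring
    _ ≤ 10 ^ 144 * 10 ^ 856 := mul_le_mul h4 h2 (by positivity) (by positivity)
    _ = 10 ^ 1000 := h3.symm

theorem small_iff {X : Type u} [Fintype X] (F : Set (Set X)) (p : ℝ) :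
    (∃ G : Set (Set X), (∀ H ∈ F, ∃ S ∈ G, S ⊆ H) ∧ (∑ᶠ S ∈ G, p ^ S.ncard) ≤ 1 / 2) ↔
      Talagrand.IsSmall {A : Finset X | (A : Set X) ∈ F} p := by
  classical
  constructor
  · rintro ⟨G, h1, h2⟩
    refine ⟨(univ : Finset (Finset X)).filter (fun S : Finset X => (S : Set X) ∈ G),
      fun H hH => ?_, ?_⟩
    · obtain ⟨S, hS, hSH⟩ := h1 (H : Set X) hH
      refine ⟨fin S, mem_filter.2 ⟨mem_univ _, ?_⟩, fun x hx => ?_⟩
      · rw [coe_fin]; exact hS
      · exact mem_coe.1 (hSH (mem_fin.1 hx))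
    · rw [sum_conv] at h2
      refine le_trans (le_of_eq (sum_congr rfl fun S _ => ?_)) h2
      rw [Set.ncard_coe_finset]
  · rintro ⟨G, h1, h2⟩
    refine ⟨{S : Set X | fin S ∈ G}, fun H hH => ?_, ?_⟩
    · obtain ⟨S, hS, hSH⟩ := h1 (fin H) (by
        show ((fin H : Finset X) : Set X) ∈ F
        rw [coe_fin]; exact hH)
      refine ⟨(S : Set X), ?_, fun x hx => ?_⟩
      · show fin (S : Set X) ∈ G
        rw [fin_coe]; exact hS
      · exact mem_fin.1 (hSH (mem_coe.1 hx))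
    · rw [sum_conv]
      refine le_trans (le_of_eq ?_) h2
      refine sum_congr ?_ fun S _ => by rw [Set.ncard_coe_finset]
      ext S
      simp [fin_coe]

theorem fracSmall_iff {X : Type u} [Fintype X] (F : Set (Set X)) (p : ℝ) :
    (∃ g : Set X → ℝ, (∀ S, 0 ≤ g S ∧ g S ≤ 1) ∧
      (∀ H ∈ F, 1 ≤ ∑ᶠ S ∈ {S : Set X | S ⊆ H}, g S) ∧
      (∑ᶠ S : Set X, g S * p ^ S.ncard) ≤ 1 / 2) ↔
      Talagrand.IsFracSmall {A : Finset X | (A : Set X) ∈ F} p := by
  classical
  have hpow : ∀ (H : Set X) (f : Set X → ℝ), (∑ᶠ S ∈ {S : Set X | S ⊆ H}, f S) =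
      ∑ S ∈ (fin H).powerset, f (S : Set X) := by
    intro H f
    rw [sum_conv]
    refine sum_congr ?_ fun S _ => rfl
    ext S
    rw [mem_filter, Set.mem_ofPred_eq, mem_powerset]
    constructor
    · rintro ⟨-, h⟩ x hx
      exact mem_fin.2 (h (mem_coe.2 hx))
    · intro h
      exact ⟨mem_univ _, fun x hx => mem_fin.1 (h (mem_coe.1 hx))⟩
  constructor
  · rintro ⟨g, h1, h2, h3⟩
    refine ⟨fun S : Finset X => g (S : Set X), ⟨fun S => h1 _, fun H hH => ?_⟩, ?_⟩
    · have h4 := h2 (H : Set X) hH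
      rw [hpow, fin_coe] at h4
      exact h4
    · rw [sum_conv_all] at h3
      refine le_trans (le_of_eq (sum_congr rfl fun S _ => ?_)) h3
      rw [Set.ncard_coe_finset]
  · rintro ⟨g, ⟨h1, h2⟩, h3⟩
    refine ⟨fun S => g (fin S), fun S => h1 _, fun H hH => ?_, ?_⟩
    · rw [hpow]
      have h4 := h2 (fin H) (by
        show ((fin H : Finset X) : Set X) ∈ F
        rw [coe_fin]; exact hH)
      refine le_trans h4 (le_of_eq (sum_congr rfl fun S _ => ?_))
      rw [fin_coe]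
    · rw [sum_conv_all]
      refine le_trans (le_of_eq (sum_congr rfl fun S _ => ?_)) h3
      show g (fin (S : Set X)) * p ^ (S : Set X).ncard = g S * p ^ S.card
      rw [fin_coe, Set.ncard_coe_finset]

/-- **Talagrand's conjecture with an explicit constant.**  For every finite nonempty `X` and every
nonempty proper increasing family `F` of subsets of `X`, the maximum `q` of the `p ∈ [0, 1]` at
which some cover `G` of `F` has cost at most `1 / 2` and the maximum `qf` of the `p ∈ [0, 1]` at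
which some fractional cover `g` of `F` has cost at most `1 / 2` exist and `qf ≤ 10 ^ 1000 * q`. -/
theorem result :
    ∀ (X : Type u) [Finite X] [Nonempty X] (F : Set (Set X)),
      F.Nonempty → F ≠ Set.univ → (∀ A ∈ F, ∀ B : Set X, A ⊆ B → B ∈ F) →
      ∃ q qf : ℝ,
        IsGreatest {p : ℝ | 0 ≤ p ∧ p ≤ 1 ∧ ∃ G : Set (Set X),
          (∀ H ∈ F, ∃ S ∈ G, S ⊆ H) ∧ (∑ᶠ S ∈ G, p ^ S.ncard) ≤ 1 / 2} q ∧
        IsGreatest {p : ℝ | 0 ≤ p ∧ p ≤ 1 ∧ ∃ g : Set X → ℝ,
          (∀ S, 0 ≤ g S ∧ g S ≤ 1) ∧ (∀ H ∈ F, 1 ≤ ∑ᶠ S ∈ {S : Set X | S ⊆ H}, g S) ∧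
          (∑ᶠ S : Set X, g S * p ^ S.ncard) ≤ 1 / 2} qf ∧
        qf ≤ 10 ^ 1000 * q := by
  intro X _ _ F _ hpr hup
  classical
  have : Fintype X := Fintype.ofFinite X
  have h0 : (∅ : Finset X) ∉ {A : Finset X | (A : Set X) ∈ F} := by
    intro h
    have h1 : (∅ : Set X) ∈ F := by
      have h2 : ((∅ : Finset X) : Set X) ∈ F := h
      rwa [coe_empty] at h2
    exact hpr (Set.eq_univ_of_forall fun B => hup ∅ h1 B (Set.empty_subset B))
  have e1 : {p : ℝ | 0 ≤ p ∧ p ≤ 1 ∧ ∃ G : Set (Set X),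
      (∀ H ∈ F, ∃ S ∈ G, S ⊆ H) ∧ (∑ᶠ S ∈ G, p ^ S.ncard) ≤ 1 / 2} =
      Talagrand.smallSet {A : Finset X | (A : Set X) ∈ F} := by
    ext p
    exact and_congr_right fun _ => and_congr_right fun _ => small_iff F p
  have e2 : {p : ℝ | 0 ≤ p ∧ p ≤ 1 ∧ ∃ g : Set X → ℝ,
      (∀ S, 0 ≤ g S ∧ g S ≤ 1) ∧ (∀ H ∈ F, 1 ≤ ∑ᶠ S ∈ {S : Set X | S ⊆ H}, g S) ∧
      (∑ᶠ S : Set X, g S * p ^ S.ncard) ≤ 1 / 2} =
      Talagrand.fracSmallSet {A : Finset X | (A : Set X) ∈ F} := by
    ext p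
    exact and_congr_right fun _ => and_congr_right fun _ => fracSmall_iff F p
  rw [e1, e2]
  have hA := Talagrand.isGreatest_qInt {A : Finset X | (A : Set X) ∈ F} h0
  have hB := Talagrand.isGreatest_qFrac {A : Finset X | (A : Set X) ∈ F} h0
  refine ⟨_, _, hA, hB, ?_⟩
  have hK := Vale.Agent.P034.bigK_pos
  obtain ⟨h1, h2, g, ⟨h3, h4⟩, h5⟩ := hB.1
  have hq0 : 0 ≤ Talagrand.qInt {A : Finset X | (A : Set X) ∈ F} := hA.1.1
  rcases h1.eq_or_lt with h | h
  · rw [← h]; positivity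
  · obtain ⟨G, hG1, hG2⟩ := Vale.Agent.P034.frac_to_int
      ({A : Finset X | (A : Set X) ∈ F} : Set (Finset X)).toFinset g (fun S => (h3 S).1)
      (fun H hH => h4 H (Set.mem_toFinset.1 hH)) _ h h5
    have hK1 : 1 ≤ Vale.Agent.P034.bigK := by
      have := Vale.Agent.P034.one_le_kap
      unfold Vale.Agent.P034.bigK
      linarith
    have h6 : Talagrand.qFrac {A : Finset X | (A : Set X) ∈ F} / Vale.Agent.P034.bigK ∈
        Talagrand.smallSet {A : Finset X | (A : Set X) ∈ F} := by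
      refine ⟨(div_pos h hK).le, ?_, G, ?_, hG2⟩
      · rw [div_le_one hK]; linarith
      · intro H hH
        exact hG1 H (Set.mem_toFinset.2 hH)
    have h7 := hA.2 h6
    rw [div_le_iff₀ hK] at h7
    refine h7.trans ?_
    rw [mul_comm]
    exact mul_le_mul_of_nonneg_right bigK_le hq0

end Vale.Agent.Results.P034.ExplicitConstant
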