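import Vale.Agent.Lib.P034.Main

/-!
# P034: integral versus fractional expectation thresholds

We prove Talagrand's conjecture: there is a universal constant `K` with
`q_f(F) ≤ K * q(F)` for every nonempty proper increasing family `F` of subsets of a finite
nonempty set.
-/

namespace Vale.Agent.Results.P034.Talagrand

open Finset

universe u

/-- `G` covers `F`: every member of `F` contains a member of `G`. -/
def Covers {α : Type u} (G : Finset (Finset α)) (F : Set (Finset α)) : Prop :=
  ∀ H ∈ F, ∃ S ∈ G, S ⊆ H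

/-- `F` is `p`-small: some cover has cost at most `1 / 2` at `p`. -/
def IsSmall {α : Type u} (F : Set (Finset α)) (p : ℝ) : Prop :=
  ∃ G : Finset (Finset α), Covers G F ∧ ∑ S ∈ G, p ^ S.card ≤ 1 / 2

/-- `g` is a fractional cover of `F`. -/
def IsFracCover {α : Type u} (g : Finset α → ℝ) (F : Set (Finset α)) : Prop :=
  (∀ S, 0 ≤ g S ∧ g S ≤ 1) ∧ ∀ H ∈ F, 1 ≤ ∑ S ∈ H.powerset, g S

/-- some fractional cover of `F` has cost at most `1 / 2` at `p`. -/
def IsFracSmall {α : Type u} [Fintype α] (F : Set (Finset α)) (p : ℝ) : Prop :=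
  ∃ g : Finset α → ℝ, IsFracCover g F ∧ ∑ S : Finset α, g S * p ^ S.card ≤ 1 / 2

/-- the parameters `p ∈ [0, 1]` at which `F` is `p`-small. -/
def smallSet {α : Type u} (F : Set (Finset α)) : Set ℝ :=
  {p : ℝ | 0 ≤ p ∧ p ≤ 1 ∧ IsSmall F p}

/-- the parameters `p ∈ [0, 1]` at which `F` has a fractional cover of cost at most `1 / 2`. -/
def fracSmallSet {α : Type u} [Fintype α] (F : Set (Finset α)) : Set ℝ :=
  {p : ℝ | 0 ≤ p ∧ p ≤ 1 ∧ IsFracSmall F p}

/-- the integral expectation threshold `q(F)` (a maximum, see `result`). -/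
noncomputable def qInt {α : Type u} (F : Set (Finset α)) : ℝ := sSup (smallSet F)

/-- the fractional expectation threshold `q_f(F)` (a maximum, see `result`). -/
noncomputable def qFrac {α : Type u} [Fintype α] (F : Set (Finset α)) : ℝ :=
  sSup (fracSmallSet F)

theorem isGreatest_qInt {α : Type u} [Fintype α] (F : Set (Finset α)) (h0 : ∅ ∉ F) :
    IsGreatest (smallSet F) (qInt F) := by
  classical
  have hcl : IsCompact (smallSet F) := by
    have h1 : smallSet F = Set.Icc 0 1 ∩ ⋃ G : Finset (Finset α),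
        {p : ℝ | Covers G F ∧ ∑ S ∈ G, p ^ S.card ≤ 1 / 2} := by
      ext p
      simp only [smallSet, IsSmall, Set.mem_inter_iff, Set.mem_iUnion, Set.mem_ofPred_eq,
        Set.mem_Icc]
      tauto
    rw [h1]
    refine isCompact_Icc.inter_right (isClosed_iUnion_of_finite fun G => ?_)
    by_cases hG : Covers G F
    · simp only [hG, true_and]
      exact isClosed_le (by fun_prop) continuous_const
    · simp only [hG, false_and]
      exact isClosed_empty
  refine hcl.isGreatest_sSup ⟨0, le_rfl, zero_le_one, F.toFinset, ?_, ?_⟩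
  · intro H hH
    exact ⟨H, Set.mem_toFinset.2 hH, Subset.refl _⟩
  · rw [sum_eq_zero]
    · norm_num
    · intro S hS
      rw [Set.mem_toFinset] at hS
      refine zero_pow ?_
      intro hc
      rw [card_eq_zero] at hc
      subst hc
      exact h0 hS

theorem isGreatest_qFrac {α : Type u} [Fintype α] (F : Set (Finset α)) (h0 : ∅ ∉ F) :
    IsGreatest (fracSmallSet F) (qFrac F) := by
  classical
  have hcl : IsCompact (fracSmallSet F) := by
    have h1 : fracSmallSet F = Prod.fst '' (Set.Icc ((0 : ℝ), (fun _ => 0 : Finset α → ℝ))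
        ((1 : ℝ), (fun _ => 1 : Finset α → ℝ)) ∩
        ({z : ℝ × (Finset α → ℝ) | ∀ H ∈ F, 1 ≤ ∑ S ∈ H.powerset, z.2 S} ∩
        {z : ℝ × (Finset α → ℝ) | ∑ S : Finset α, z.2 S * z.1 ^ S.card ≤ 1 / 2})) := by
      ext p
      constructor
      · rintro ⟨a, b, g, ⟨c, d⟩, e⟩
        exact ⟨(p, g), ⟨⟨⟨a, fun S => (c S).1⟩, ⟨b, fun S => (c S).2⟩⟩, d, e⟩, rfl⟩
      · rintro ⟨⟨p', g⟩, ⟨⟨⟨a, c⟩, ⟨b, c'⟩⟩, d, e⟩, rfl⟩
        exact ⟨a, b, g, ⟨fun S => ⟨c S, c' S⟩, d⟩, e⟩
    rw [h1]
    refine (isCompact_Icc.inter_right (IsClosed.inter ?_ ?_)).image continuous_fst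
    · have h2 : {z : ℝ × (Finset α → ℝ) | ∀ H ∈ F, 1 ≤ ∑ S ∈ H.powerset, z.2 S}
          = ⋂ H ∈ F, {z : ℝ × (Finset α → ℝ) | 1 ≤ ∑ S ∈ H.powerset, z.2 S} := by
        ext z
        simp only [Set.mem_iInter, Set.mem_ofPred_eq]
      rw [h2]
      refine isClosed_biInter fun H _ => isClosed_le continuous_const ?_
      fun_prop
    · exact isClosed_le (by fun_prop) continuous_const
  refine hcl.isGreatest_sSup ⟨0, le_rfl, zero_le_one, fun S => if S ∈ F then 1 else 0,
    ⟨fun S => ?_, fun H hH => ?_⟩, ?_⟩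
  · beta_reduce
    split_ifs <;> norm_num
  · have h1 : (if H ∈ F then (1 : ℝ) else 0) ≤ ∑ S ∈ H.powerset, if S ∈ F then (1 : ℝ) else 0 :=
      single_le_sum (f := fun S => if S ∈ F then (1 : ℝ) else 0)
        (fun S _ => by split_ifs <;> norm_num) (mem_powerset_self H)
    rw [if_pos hH] at h1
    exact h1
  · rw [sum_eq_zero]
    · norm_num
    · intro S _
      beta_reduce
      split_ifs with hS
      · rw [one_mul]
        refine zero_pow ?_
        intro hc
        rw [card_eq_zero] at hc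
        subst hc
        exact h0 hS
      · rw [zero_mul]

/-- **Talagrand's conjecture.** There is a universal constant `K` such that for every finite
nonempty set and every nonempty increasing family `F` of subsets not containing the empty set,
both expectation thresholds are attained maxima and `q_f(F) ≤ K * q(F)`. -/
theorem result : ∃ K : ℝ, 0 < K ∧
    ∀ (α : Type u) [Fintype α] [Nonempty α] (F : Set (Finset α)),
      IsUpperSet F → F.Nonempty → ∅ ∉ F →
        IsGreatest (smallSet F) (qInt F) ∧ IsGreatest (fracSmallSet F) (qFrac F) ∧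
          qFrac F ≤ K * qInt F := by
  refine ⟨Vale.Agent.P034.bigK, Vale.Agent.P034.bigK_pos, ?_⟩
  intro α _ _ F _ _ h0
  classical
  have hA := isGreatest_qInt F h0
  have hB := isGreatest_qFrac F h0
  refine ⟨hA, hB, ?_⟩
  have hK := Vale.Agent.P034.bigK_pos
  obtain ⟨h1, h2, g, ⟨h3, h4⟩, h5⟩ := hB.1
  have hq0 : 0 ≤ qInt F := hA.1.1
  rcases h1.eq_or_lt with h | h
  · rw [← h]; positivity
  · obtain ⟨G, hG1, hG2⟩ := Vale.Agent.P034.frac_to_int F.toFinset g (fun S => (h3 S).1)
      (fun H hH => h4 H (Set.mem_toFinset.1 hH)) (qFrac F) h h5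
    have hK1 : 1 ≤ Vale.Agent.P034.bigK := by
      have := Vale.Agent.P034.one_le_kap
      unfold Vale.Agent.P034.bigK
      linarith
    have h6 : qFrac F / Vale.Agent.P034.bigK ∈ smallSet F := by
      refine ⟨(div_pos h hK).le, ?_, G, ?_, hG2⟩
      · rw [div_le_one hK]; linarith
      · intro H hH
        exact hG1 H (Set.mem_toFinset.2 hH)
    have h7 := hA.2 h6
    rw [div_le_iff₀ hK] at h7
    linarith

end Vale.Agent.Results.P034.Talagrand
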